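import Vale.Agent.P092.H259.Mx.Red
import Vale.Agent.P092.H259.Fk.Fin
import Vale.Agent.P092.H35.Mx.MinU

/-!
P092, project MIX (helper259): what has to be known about the groups of the class `TypeL`.
-/

set_option linter.all false

namespace Vale.Agent.P092.H259.Mx

theorem lieG_of_typeL {G : Type} [Group G] [TopologicalSpace G] (h : UN.TypeL G) : UN.IsLieG G := h

/-- **The class `TypeL`.** -/
theorem bpl_typeL (G : Type) [Group G] [TopologicalSpace G] (h : UN.TypeL G) : Bpl G :=
  ⟨Fk.lieG_ov (lieG_of_typeL h), H35.Mx.minC_typeL h, H213.Nd.nd_lieG (lieG_of_typeL h)⟩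

end Vale.Agent.P092.H259.Mx
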