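import Mathlib
import Vale.Agent.P092.UN.StM

/-!
P092, project MIX (helper259): Kazhdan's property (T) of a topological group; it passes from a discrete
group to every topological group in which it has a dense image.
-/

set_option linter.all false

open Set Topology Filter

namespace Vale.Agent.P092.H259.Mx

/-- Kazhdan's property (T) of a topological group -/
def KazT (G : Type) [Group G] [TopologicalSpace G] : Prop :=
  ∃ (Q : Set G) (κ : ℝ), IsCompact Q ∧ 0 < κ ∧
    ∀ (H : Type) [NormedAddCommGroup H] [InnerProductSpace ℂ H] [CompleteSpace H]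
      (σ : G →* (H →L[ℂ] H)), (∀ g v, ‖σ g v‖ = ‖v‖) → (∀ v, Continuous fun g => σ g v) →
        (∀ v, (∀ g, σ g v = v) → v = 0) → ∀ v, ∃ g ∈ Q, κ * ‖v‖ ≤ ‖σ g v - v‖

theorem kazT_of_dense {Γ G : Type} [Group Γ] [Group G] [TopologicalSpace G] (h : UN.PropT Γ)
    (f : Γ →* G) (hf : DenseRange f) : KazT G := by
  obtain ⟨Q, κ, hκ, h⟩ := h
  refine ⟨f '' (Q : Set Γ), κ, (Q.finite_toSet.image f).isCompact, hκ, ?_⟩
  intro H _ _ _ σ hσ hc hn v
  obtain ⟨g, hg, h1⟩ := h H (σ.comp f) (fun g v => hσ _ v) (fun v hv => hn v fun g => by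
    have h2 : IsClosed {g : G | σ g v = v} := isClosed_eq (hc v) continuous_const
    have h3 : closure (Set.range f) ⊆ {g : G | σ g v = v} :=
      closure_minimal (by
        rintro _ ⟨γ, rfl⟩
        exact hv γ) h2
    exact h3 (hf g)) v
  exact ⟨f g, ⟨g, hg, rfl⟩, h1⟩

/-- the same in the letters of the class -/
theorem kazT_iff (G : Type) [Group G] [TopologicalSpace G] : UN.KazT G ↔ KazT G := Iff.rfl

open Matrix in
/-- `TypeP` without the auxiliary definition -/
theorem typeP_old {G : Type} [Group G] [TopologicalSpace G] (h : UN.TypeP G) :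
    ∃ (k : Type) (_ : NontriviallyNormedField k) (n : ℕ)
      (p : G →* GL (Fin n) k ⧸ Subgroup.center (GL (Fin n) k)),
      ProperSpace k ∧ UN.LocK k ∧ 3 ≤ n ∧ (n : k) ≠ 0 ∧ Topology.IsClosedEmbedding p ∧
      ∀ g : GL (Fin n) k, g.1.det = 1 → ∃ e, p e = QuotientGroup.mk g := by
  obtain ⟨k, i, n, h1, h2, h3, h4, p, hp, hs⟩ := h
  exact ⟨k, i, n, p, h1, h2, h3, h4, hp, fun g hg => hs _ ⟨g, hg, rfl⟩⟩

end Vale.Agent.P092.H259.Mx
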