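import Vale.Agent.P092.H188.LatP
import Vale.Agent.P092.H899.Simple
import Vale.Agent.P092.UN.StM
import Vale.Agent.P092.H259.Mx.Kaz
import Vale.Agent.P092.UN.ClsV
import Mathlib.Analysis.Calculus.InverseFunctionTheorem.Deriv

/-!
P092, project MIX (helper259): the groups of the class `TypeP` are overgroups of finite index of
quotients of `SL_n(k)`.
-/

set_option linter.all false

open Set Topology Filter MeasureTheory Matrix

namespace Vale.Agent.P092.H259.Mx

open Vale.Agent.P092.H188.LatP (PG sl t2_pg sc_pg lc_pg coc comm_sl)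

section pw

variable {k : Type} [NontriviallyNormedField k] [CompleteSpace k]

/-- `n`-th powers are a neighbourhood of one, if `n ≠ 0` in `k` -/
theorem pow_nhds {n : ℕ} (hn : (n : k) ≠ 0) : {u : kˣ | ∃ v : kˣ, v ^ n = u} ∈ 𝓝 (1 : kˣ) := by
  have h1 : HasStrictDerivAt (fun x : k => x ^ n) ((n : k) * (1 : k) ^ (n - 1)) 1 :=
    hasStrictDerivAt_pow n 1
  have h2 : (n : k) * (1 : k) ^ (n - 1) ≠ 0 := by
    rw [one_pow, mul_one]
    exact hn
  have h3 := h1.map_nhds_eq h2
  have h4 : (fun x : k => x ^ n) '' {x | x ≠ 0} ∈ 𝓝 ((1 : k) ^ n) := by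
    rw [← h3]
    exact image_mem_map (isOpen_ne.mem_nhds one_ne_zero)
  rw [one_pow] at h4
  have h5 : Tendsto (fun u : kˣ => (u : k)) (𝓝 1) (𝓝 1) := by
    have := (Units.continuous_val (M := k)).tendsto 1
    rwa [Units.val_one] at this
  filter_upwards [h5 h4] with u hu
  obtain ⟨x, hx, hxu⟩ := hu
  refine ⟨Units.mk0 x hx, Units.ext ?_⟩
  rw [Units.val_pow_eq_pow_val]
  exact hxu

end pw

section psl

variable (k : Type) [NontriviallyNormedField k] (n : ℕ)

/-- `SL_n(k) → PGL_n(k)` -/
def slh : SpecialLinearGroup (Fin n) k →* PG k n :=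
  (QuotientGroup.mk' (Subgroup.center (GL (Fin n) k))).comp SpecialLinearGroup.toGL

variable {k n}

theorem slh_apply (s : SpecialLinearGroup (Fin n) k) : slh k n s = sl s := rfl

theorem slh_normal : (slh k n).range.Normal := by
  refine ⟨fun x hx g => ?_⟩
  obtain ⟨s, hs⟩ := comm_sl g x
  have h1 : g * x * g⁻¹ = sl s * x := by rw [← hs, inv_mul_cancel_right]
  rw [h1]
  exact (slh k n).range.mul_mem ⟨s, rfl⟩ hx

theorem slh_open [ProperSpace k] (hn : (n : k) ≠ 0) :
    IsOpen ((slh k n).range : Set (PG k n)) := by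
  haveI : CompleteSpace k := inferInstance
  refine Subgroup.isOpen_of_mem_nhds _ (g := 1) ?_
  have h1 : {g : GL (Fin n) k | ∃ v : kˣ, v ^ n = GeneralLinearGroup.det g} ∈
      𝓝 (1 : GL (Fin n) k) := by
    have hc : Continuous (GeneralLinearGroup.det : GL (Fin n) k → kˣ) := by
      rw [Units.continuous_iff]
      exact ⟨(Continuous.matrix_det continuous_id).comp Units.continuous_val,
        (Continuous.matrix_det continuous_id).comp (Units.continuous_val.comp continuous_inv)⟩
    have h2 := hc.tendsto 1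
    rw [map_one] at h2
    exact h2 (pow_nhds hn)
  have h2 := (QuotientGroup.isOpenMap_coe (N := Subgroup.center (GL (Fin n) k))).image_mem_nhds h1
  refine mem_of_superset h2 ?_
  rintro _ ⟨g, ⟨v, hv⟩, rfl⟩
  let z : GL (Fin n) k := ⟨scalar (Fin n) ((v⁻¹ : kˣ) : k), scalar (Fin n) (v : k), by
    rw [← map_mul, Units.inv_mul, map_one], by rw [← map_mul, Units.mul_inv, map_one]⟩
  have hz : z ∈ Subgroup.center (GL (Fin n) k) := by
    rw [GeneralLinearGroup.mem_center_iff_val_mem_range_scalar]
    exact ⟨_, rfl⟩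
  have hdet : (g * z).1.det = 1 := by
    have h3 : z.1.det = ((v⁻¹ : kˣ) : k) ^ n := by
      change (scalar (Fin n) ((v⁻¹ : kˣ) : k)).det = _
      rw [scalar_apply, det_diagonal, Finset.prod_const, Finset.card_univ, Fintype.card_fin]
    have h4 : g.1.det = (v : k) ^ n := by
      have := congrArg Units.val hv
      rw [Units.val_pow_eq_pow_val] at this
      exact this.symm
    rw [Units.val_mul, det_mul, h3, h4, ← mul_pow, Units.mul_inv, one_pow]
  refine ⟨⟨(g * z).1, hdet⟩, ?_⟩
  show (QuotientGroup.mk (SpecialLinearGroup.toGL _) : PG k n) = QuotientGroup.mk g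
  have h5 : (SpecialLinearGroup.toGL (⟨(g * z).1, hdet⟩ : SpecialLinearGroup (Fin n) k)) = g * z :=
    Units.ext rfl
  rw [h5]
  exact QuotientGroup.mk_mul_of_mem g hz

theorem slh_fin [ProperSpace k] (hn : (n : k) ≠ 0) : (slh k n).range.FiniteIndex := by
  have hn0 : n ≠ 0 := by
    rintro rfl
    exact hn Nat.cast_zero
  obtain ⟨C, hC, hC'⟩ := coc (k := k) hn0
  haveI : DiscreteTopology (PG k n ⧸ (slh k n).range) :=
    QuotientGroup.discreteTopology (slh_open hn)
  haveI : CompactSpace (PG k n ⧸ (slh k n).range) := by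
    refine ⟨?_⟩
    have h1 : (univ : Set (PG k n ⧸ (slh k n).range)) = (QuotientGroup.mk) '' C := by
      symm
      rw [eq_univ_iff_forall]
      intro x
      obtain ⟨g, rfl⟩ := QuotientGroup.mk_surjective x
      obtain ⟨c, hc, s, hs⟩ := hC' g
      refine ⟨c, hc, ?_⟩
      rw [hs]
      exact (QuotientGroup.mk_mul_of_mem c (⟨s, rfl⟩ : sl s ∈ (slh k n).range)).symm
    rw [h1]
    exact hC.image QuotientGroup.continuous_mk
  haveI : Finite (PG k n ⧸ (slh k n).range) := finite_of_compact_of_discrete
  exact Subgroup.finiteIndex_of_finite_quotient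

end psl

section cls

variable {k : Type} [NontriviallyNormedField k] {n : ℕ}

theorem mem_comm_iff (hn : 2 ≤ n) (x : GL (Fin n) k) :
    x ∈ commutator (GL (Fin n) k) ↔ x.1.det = 1 := by
  constructor
  · intro hx
    have h1 : commutator (GL (Fin n) k) ≤
        (GeneralLinearGroup.det : GL (Fin n) k →* kˣ).ker := Abelianization.commutator_subset_ker _
    have h2 := congrArg Units.val (MonoidHom.mem_ker.1 (h1 hx))
    exact h2
  · intro hx
    haveI : Nontrivial (Fin n) := Fin.nontrivial_iff_two_le.2 hn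
    haveI : Infinite k := NontriviallyNormedField.infinite k
    obtain ⟨s, hs⟩ : ∃ s : SpecialLinearGroup (Fin n) k, SpecialLinearGroup.toGL s = x :=
      ⟨⟨x.1, hx⟩, Units.ext rfl⟩
    have h1 : s ∈ commutator (SpecialLinearGroup (Fin n) k) := by
      rw [H899.commutator_eq_top]
      exact Subgroup.mem_top _
    rw [← hs]
    have h3 : (commutator (SpecialLinearGroup (Fin n) k)).map
        (SpecialLinearGroup.toGL : SpecialLinearGroup (Fin n) k →* GL (Fin n) k) ≤
        commutator (GL (Fin n) k) := by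
      rw [commutator_def, Subgroup.map_commutator, commutator_def]
      exact Subgroup.commutator_mono le_top le_top
    exact h3 ⟨_, h1, rfl⟩

end cls

section typ

variable {G : Type} [Group G] [TopologicalSpace G] {k : Type} [NontriviallyNormedField k] {n : ℕ}
  {p : G →* PG k n}

theorem exists_pre (hp : ∀ g : GL (Fin n) k, g.1.det = 1 → ∃ e, p e = QuotientGroup.mk g)
    (x : commutator (GL (Fin n) k)) (hn : 2 ≤ n) : ∃ e, p e = QuotientGroup.mk x.1 :=
  hp x.1 ((mem_comm_iff hn _).1 x.2)

/-- **The class of the subgroup.** -/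
theorem isSL_of [ProperSpace k] [IsTopologicalGroup G] (hn : 2 ≤ n) (hnk : (n : k) ≠ 0)
    (hp : IsClosedEmbedding p)
    (hs : ∀ g : GL (Fin n) k, g.1.det = 1 → ∃ e, p e = QuotientGroup.mk g) :
    UN.IsSL k ((slh k n).range.comap p) := by
  classical
  haveI := t2_pg k n
  haveI := lc_pg k n
  haveI := sc_pg k n
  choose q hq using fun x : commutator (GL (Fin n) k) => exists_pre hs x hn
  have hqN : ∀ x, q x ∈ (slh k n).range.comap p := by
    intro x
    rw [Subgroup.mem_comap, hq]
    obtain ⟨s, hs'⟩ := H188.LatP.exists_sl x.1 ((mem_comm_iff hn _).1 x.2)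
    exact ⟨s, hs'.symm⟩
  obtain ⟨f, hf⟩ : ∃ f : commutator (GL (Fin n) k) →* (slh k n).range.comap p,
      ∀ x, (f x : G) = q x := by
    refine ⟨{ toFun := fun x => ⟨q x, hqN x⟩, map_one' := ?_, map_mul' := ?_ }, fun x => rfl⟩
    · refine Subtype.ext (hp.injective ?_)
      show p (q 1) = p 1
      rw [hq, map_one]
      rfl
    · intro x y
      refine Subtype.ext (hp.injective ?_)
      show p (q (x * y)) = p (q x * q y)
      rw [map_mul, hq, hq, hq]
      rfl
  have hpf : ∀ x, p (f x : G) = QuotientGroup.mk x.1 := fun x => by rw [hf, hq]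
  have hcont : Continuous f := by
    refine Continuous.subtype_mk (f := fun x => (f x : G)) ?_ _
    rw [hp.isInducing.continuous_iff]
    have h1 : (p ∘ fun x => (f x : G)) = fun x => (QuotientGroup.mk x.1 : PG k n) :=
      funext hpf
    rw [h1]
    exact QuotientGroup.continuous_mk.comp continuous_subtype_val
  have hsurj : Function.Surjective f := by
    rintro ⟨x, hx⟩
    obtain ⟨s, hs'⟩ := hx
    have h1 : (SpecialLinearGroup.toGL s).1.det = 1 := s.2
    refine ⟨⟨SpecialLinearGroup.toGL s, (mem_comm_iff hn _).2 h1⟩, Subtype.ext (hp.injective ?_)⟩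
    rw [hpf]
    exact hs'
  -- the open mapping theorem
  haveI : LocallyCompactSpace G := hp.locallyCompactSpace
  haveI : T2Space G := hp.isEmbedding.t2Space
  have hNo : IsOpen (((slh k n).range.comap p : Subgroup G) : Set G) :=
    (slh_open hnk).preimage hp.continuous
  haveI : LocallyCompactSpace ((slh k n).range.comap p) := hNo.locallyCompactSpace
  haveI h0 : SecondCountableTopology (Matrix (Fin n) (Fin n) k) :=
    inferInstanceAs (SecondCountableTopology (Fin n → Fin n → k))
  haveI h2 : SecondCountableTopology (Matrix (Fin n) (Fin n) k)ᵐᵒᵖ :=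
    MulOpposite.opHomeomorph.symm.secondCountableTopology
  haveI h3 : SecondCountableTopology (GL (Fin n) k) :=
    Units.isEmbedding_embedProduct.secondCountableTopology
  haveI h5 : LocallyCompactSpace (Matrix (Fin n) (Fin n) k) :=
    inferInstanceAs (LocallyCompactSpace (Fin n → Fin n → k))
  haveI h6 : LocallyCompactSpace (GL (Fin n) k) := inferInstance
  have hcl : IsClosed ((commutator (GL (Fin n) k) : Subgroup (GL (Fin n) k)) :
      Set (GL (Fin n) k)) := by
    have h7 : ((commutator (GL (Fin n) k) : Subgroup (GL (Fin n) k)) : Set (GL (Fin n) k)) =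
        {x | x.1.det = 1} := by
      ext x
      exact mem_comm_iff hn x
    rw [h7]
    exact isClosed_eq ((Continuous.matrix_det continuous_id).comp Units.continuous_val)
      continuous_const
  haveI : LocallyCompactSpace (commutator (GL (Fin n) k)) :=
    hcl.isClosedEmbedding_subtypeVal.locallyCompactSpace
  haveI h10 : SecondCountableTopology (commutator (GL (Fin n) k)) :=
    TopologicalSpace.Subtype.secondCountableTopology _
  haveI h11 : SigmaCompactSpace (commutator (GL (Fin n) k)) :=
    sigmaCompactSpace_of_locallyCompact_secondCountable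
  have hopen : IsOpenMap f := MonoidHom.isOpenMap_of_sigmaCompact f hsurj hcont
  refine ⟨n, hn, f, IsOpenMap.isQuotientMap hopen hcont hsurj, ?_⟩
  intro x hx
  have h8 : (QuotientGroup.mk x.1 : PG k n) = 1 := by
    rw [← hpf, MonoidHom.mem_ker.1 hx]
    exact map_one p
  have h9 : x.1 ∈ Subgroup.center (GL (Fin n) k) := (QuotientGroup.eq_one_iff _).1 h8
  rw [Subgroup.mem_center_iff]
  intro y
  exact Subtype.ext ((Subgroup.mem_center_iff.1 h9) y.1)

/-- **`TypeP` groups are of the class `ClsV`.** -/
theorem clsV_typeP (h : UN.TypeP G) : UN.ClsV G ∧ ∃ N : Subgroup G, IsOpen (N : Set G) ∧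
    N.FiniteIndex ∧ ∃ (k : Type) (_ : NontriviallyNormedField k) (_ : ProperSpace k),
      UN.LocK k ∧ UN.IsSL k N := by
  obtain ⟨k, _, n, p, hk, hl, hn, hnk, hp, hs⟩ := typeP_old h
  haveI : IsTopologicalGroup G := hp.isInducing.topologicalGroup p
  have h1 := isSL_of (by omega : 2 ≤ n) hnk hp hs
  haveI := slh_normal (k := k) (n := n)
  haveI := slh_fin (k := k) (n := n) hnk
  have h2 : IsOpen (((slh k n).range.comap p : Subgroup G) : Set G) :=
    (slh_open hnk).preimage hp.continuous
  have h3 : ((slh k n).range.comap p).FiniteIndex := by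
    refine ⟨?_⟩
    rw [Subgroup.index_comap]
    exact (inferInstance : ((slh k n).range.subgroupOf p.range).FiniteIndex).index_ne_zero
  refine ⟨⟨inferInstance, (slh k n).range.comap p, inferInstance, h3, h2, k, inferInstance, hk,
    hl, Or.inr ⟨k, inferInstance, inferInstance, ⟨inferInstance, inferInstance⟩, Or.inl h1⟩⟩,
    (slh k n).range.comap p, h2, h3, k, inferInstance, hk, hl, h1⟩

end typ

end Vale.Agent.P092.H259.Mx
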