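import Vale.Agent.P092.H259.Mx.Red
import Vale.Agent.P092.H259.Mx.TypP
import Vale.Agent.P092.H144.Nc.Sld
import Vale.Agent.P092.H35.Mx.MinT

/-!
P092, project MIX (helper259): what has to be known about the groups of the class `TypeP`.
-/

set_option linter.all false

open Set Topology Filter MeasureTheory Matrix

namespace Vale.Agent.P092.H259.Mx

open Vale.Agent.P092.H213.Nd (ND)
open Vale.Agent.P092.H259.Fk (OvG)
open Vale.Agent.P092.H35.Mx (MinC)

theorem locK_h {k : Type} [NontriviallyNormedField k] (h : UN.LocK k) : H933.LocK k := by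
  rcases (UN.locK_iff k).1 h with ⟨φ, h⟩ | ⟨φ, h⟩ | h
  · exact .real φ h
  · exact .cplx φ h
  · exact .ultra h

theorem top_typeP {G : Type} [Group G] [TopologicalSpace G] (h : UN.TypeP G) :
    IsTopologicalGroup G := by
  obtain ⟨k, _, n, p, -, -, -, -, hp, -⟩ := typeP_old h
  exact hp.isInducing.topologicalGroup p

/-- **Closed nondiscrete subgroups of finite covolume of `TypeP` groups are open.** -/
theorem nd_typeP {G : Type} [Group G] [TopologicalSpace G] (h : UN.TypeP G) : ND G := by
  haveI := top_typeP h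
  obtain ⟨-, N, hN, hf, k, _, hk, hl, hs⟩ := clsV_typeP h
  have h1 : H933.LocK k := locK_h hl
  have h2 : ND N := H144.Nc.nd_isSL h1 (D := k) ⟨inferInstance, inferInstance⟩ hs
  exact H793.Nc.nd_of_fi N hf hN h2

theorem minC_typeP {G : Type} [Group G] [TopologicalSpace G] (h : UN.TypeP G) : MinC G := by
  obtain ⟨k, _, n, p, -, -, -, -, hp, -⟩ := typeP_old h
  exact H35.Mx.minC_of_pgl p hp.injective

/-- **The class `TypeP`.** -/
theorem bpl_typeP (G : Type) [Group G] [TopologicalSpace G] (h : UN.TypeP G) : Bpl G :=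
  ⟨Fk.ovG_clsV (clsV_typeP h).1, minC_typeP h, nd_typeP h⟩

end Vale.Agent.P092.H259.Mx
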