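import Vale.Agent.P092.H259.Mx.Red
import Vale.Agent.P092.MX.Defs

/-!
P092, project MIX (helper259): the data of a lattice of a mixed product, modulo the radicals.
-/

set_option linter.all false

open Set Topology Filter MeasureTheory Matrix

namespace Vale.Agent.P092.H259.Mx

open Vale.Agent.P092.VR (Ov IsRad)
open Vale.Agent.P092.H515.St (IsLattice)
open Vale.Agent.P092.SR.St (ICC SuperAll)
open Vale.Agent.P092.MX (EM iM aM aM' pM)
open Vale.Agent.P092.RC (PG)

section pic

variable {J B : Type} {k : J → Type} [∀ j, NontriviallyNormedField (k j)] {N : J → ℕ}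
  {G : B → Type} [∀ b, Group (G b)] [∀ b, TopologicalSpace (G b)]
  (Γ : Subgroup (EM k N G)) (R : ∀ b, Subgroup (G b)) [∀ b, (R b).Normal]

/-- the projection of the source group to a place modulo the radical -/
def pE (b : B) : EM k N G →* G b ⧸ R b := (QuotientGroup.mk' (R b)).comp (pM k N G b)

/-- the projection of the lattice to a place modulo the radical -/
def pq (b : B) : Γ →* G b ⧸ R b := (pE R b).comp Γ.subtype

theorem pq_apply (b : B) (γ : Γ) : pq Γ R b γ = ((γ : EM k N G).2 b : G b ⧸ R b) := rfl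

theorem pE_iM [DecidableEq J] (b : B) (j : J) (h : RC.GG (k j) (N j)) :
    pE R b (iM k N G j h) = 1 := rfl

theorem pE_cont (b : B) : Continuous (pE (k := k) (N := N) R b) :=
  continuous_quotient_mk'.comp ((continuous_apply b).comp continuous_snd)

/-- independence of the places -/
theorem pE_ind [DecidableEq B] (b : B) (x : G b ⧸ R b) :
    ∃ e : EM k N G, pE R b e = x ∧ ∀ b', b' ≠ b → pE R b' e = 1 := by
  obtain ⟨y, rfl⟩ := QuotientGroup.mk_surjective x
  refine ⟨(1, Pi.mulSingle b y), ?_, fun b' hb => ?_⟩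
  · show ((Pi.mulSingle b y b : G b) : G b ⧸ R b) = y
    rw [Pi.mulSingle_eq_same]
  · show ((Pi.mulSingle b y b' : G b') : G b' ⧸ R b') = 1
    rw [Pi.mulSingle_eq_of_ne hb]
    rfl

theorem pq_dense [∀ b, IsTopologicalGroup (G b)] (b : B)
    (hd : DenseRange fun γ : Γ => (γ : EM k N G).2 b) : DenseRange (pq Γ R b) :=
  (QuotientGroup.mk'_surjective (R b)).denseRange.comp hd continuous_quotient_mk'

/-- **joint injectivity** -/
theorem pq_inj [Finite B] (hf : ∀ b, Finite (R b)) (hicc : ICC Γ) (γ : Γ)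
    (h1 : (γ : EM k N G).1 = 1) (h2 : ∀ b, pq Γ R b γ = 1) : γ = 1 := by
  by_contra hne
  refine hicc γ hne ?_
  obtain ⟨S, hS⟩ : ∃ S : Set Γ, S = {x : Γ | (x : EM k N G).1 = 1 ∧
      ∀ b, (x : EM k N G).2 b ∈ R b} := ⟨_, rfl⟩
  have hfin : S.Finite := by
    rw [hS]
    refine Set.Finite.of_injOn (f := fun x : Γ => (x : EM k N G).2)
      (t := Set.pi Set.univ fun b => (R b : Set (G b))) ?_ ?_ ?_
    · intro x hx b _
      exact hx.2 b
    · intro x hx y hy hxy
      exact Subtype.ext (Prod.ext (hx.1.trans hy.1.symm) hxy)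
    · exact Set.Finite.pi fun b => Set.toFinite (R b : Set (G b))
  refine hfin.subset ?_
  rw [hS]
  rintro _ ⟨h, rfl⟩
  refine ⟨?_, fun b => ?_⟩
  · show (h : EM k N G).1 * (γ : EM k N G).1 * (h : EM k N G).1⁻¹ = 1
    rw [h1, mul_one, mul_inv_cancel]
  · have h3 : (γ : EM k N G).2 b ∈ R b := (QuotientGroup.eq_one_iff _).1 (h2 b)
    show (h : EM k N G).2 b * (γ : EM k N G).2 b * ((h : EM k N G).2 b)⁻¹ ∈ R b
    exact (inferInstance : (R b).Normal).conj_mem _ h3 _

end pic

end Vale.Agent.P092.H259.Mx
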