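import Vale.Agent.P092.H259.Mx.Fin0
import Vale.Agent.P092.MX.End
import Vale.Agent.P092.H333.V.Ov2
import Vale.Agent.P092.SX.Fin1

/-!
P092, project MIX (helper259): `MixStmt` from the two producers.
-/

set_option linter.all false

open Set Topology Filter MeasureTheory Matrix

namespace Vale.Agent.P092.H259.Mx

open Vale.Agent.P092.VR (Ov IsRad)
open Vale.Agent.P092.H515.St (IsLattice)
open Vale.Agent.P092.SR.St (ICC SuperAll)
open Vale.Agent.P092.MX (EM iM aM aM' pM ExN ExMHalf)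
open Vale.Agent.P092.RC (PG)
open Vale.Agent.P092.H35.Mx (MinC)

/-- **(PM)** the D-factors of the first leg -/
def PMStmt : Prop :=
  ∀ {J B : Type} [Fintype J] [DecidableEq J] [Fintype B] [Nonempty J] [Nonempty B] (k : J → Type)
    [∀ j, NontriviallyNormedField (k j)] [∀ j, ProperSpace (k j)] [∀ j, MeasurableSpace (k j)]
    [∀ j, BorelSpace (k j)] (μ : ∀ j, Measure (k j)) [∀ j, (μ j).IsAddHaarMeasure] (N : J → ℕ)
    {M G : B → Type} [∀ b, Group (M b)] [∀ b, TopologicalSpace (M b)] [∀ b, Group (G b)]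
    [∀ b, TopologicalSpace (G b)] [∀ b, IsTopologicalGroup (G b)]
    [∀ b, LocallyCompactSpace (G b)] [∀ b, SecondCountableTopology (G b)] [∀ b, T2Space (G b)]
    {φ : ∀ b, M b →* G b} {r : B → ℕ} (R : ∀ b, Subgroup (G b)) [∀ b, (R b).Normal]
    (Γ : Subgroup (EM k N G)), (∀ j, H933.LocK (k j)) → (∀ j, 2 ≤ N j) →
    (∀ b, Ov (φ b) (r b)) → (∀ b, IsRad (φ b) (R b)) → (∀ b, MinC (G b)) → (∀ b, KazT (G b)) →
    (∀ b, DenseRange fun γ : Γ => (γ : EM k N G).2 b) →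
    (∀ j, DiscreteTopology (Set.range fun γ : Γ => (γ : EM k N G).1 j)) →
    IsLattice Γ → ICC Γ →
    ∃ (l : J → Type) (_ : ∀ j, NontriviallyNormedField (l j)) (_ : ∀ j, ProperSpace (l j)),
      (∀ j, H933.LocK (l j)) ∧
      ExMHalf k l μ N (iM k N G) (aM k N G) (aM' k N G) Γ (pq Γ R)

/-- **(PN)** the N-places of both legs -/
def PNStmt : Prop :=
  ∀ {J B : Type} [Fintype J] [DecidableEq J] [Fintype B] [Nonempty J] [Nonempty B] (k : J → Type)
    [∀ j, NontriviallyNormedField (k j)] [∀ j, ProperSpace (k j)] (N : J → ℕ)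
    {M G : B → Type} [∀ b, Group (M b)] [∀ b, TopologicalSpace (M b)] [∀ b, Group (G b)]
    [∀ b, TopologicalSpace (G b)] [∀ b, IsTopologicalGroup (G b)]
    [∀ b, LocallyCompactSpace (G b)] [∀ b, SecondCountableTopology (G b)] [∀ b, T2Space (G b)]
    {φ : ∀ b, M b →* G b} {r : B → ℕ} (R : ∀ b, Subgroup (G b)) [∀ b, (R b).Normal]
    (Γ : Subgroup (EM k N G)), (∀ j, UN.LocK (k j)) → (∀ j, 2 ≤ N j) →
    (∀ j, ((N j + 1 : ℕ) : k j) ≠ 0) → (∀ b, Ov (φ b) (r b)) → (∀ b, IsRad (φ b) (R b)) →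
    (∀ b, DenseRange fun γ : Γ => (γ : EM k N G).2 b) →
    (∀ j, DiscreteTopology (Set.range fun γ : Γ => (γ : EM k N G).1 j)) →
    IsLattice Γ → ICC Γ → ExN (iM k N G) Γ (pq Γ R)

/-- **The literal of project MIX from the two producers.** -/
theorem mixStmt_of (hJ : SX.Joints) (hM : PMStmt) (hN : PNStmt) : MixStmt := by
  classical
  intro J B _ _ _ _ k _ N M G _ _ _ _ φ r Γ hicc hov hmc hkz hk hd hdisc hlat
  haveI : ∀ j, ProperSpace (k j) := fun j => (hk j).1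
  have hk' : ∀ j, H933.LocK (k j) := fun j => SN.lk ((UN.locK_iff _).1 (hk j).2.1)
  have hN' : ∀ j, 2 ≤ N j := fun j => (hk j).2.2.1
  letI : ∀ j, MeasurableSpace (k j) := fun j => borel _
  haveI : ∀ j, BorelSpace (k j) := fun j => ⟨rfl⟩
  haveI : ∀ b, IsTopologicalGroup (G b) := fun b => (hov b).top
  haveI : ∀ b, LocallyCompactSpace (G b) := fun b => H333.V.Ov.lc (hov b)
  haveI : ∀ b, SecondCountableTopology (G b) := fun b => H333.V.Ov.sc (hov b)
  haveI : ∀ b, T2Space (G b) := fun b => H333.V.Ov.t2 (hov b)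
  choose R hR using fun b => H333.V.exists_rad (hov b)
  haveI := fun b => (hR b).normal
  haveI := fun b => (hR b).fin
  haveI := fun b => H333.V.tg_quo (hov b) (hR b)
  haveI := fun b => H333.V.lc_quo (hov b) (hR b)
  haveI := fun b => H333.V.sc_quo (hov b) (hR b)
  haveI := fun b => H333.V.t2_quo (hov b) (hR b)
  obtain ⟨l, _, _, hl, hEx⟩ := hM k (fun j => (Measure.addHaar : Measure (k j))) N (φ := φ)
    (r := r) R Γ hk' hN' hov hR hmc hkz hd hdisc hlat hicc
  have hE : ExN (iM k N G) Γ (pq Γ R) := @hN J B _ _ _ _ _ k _ _ N M G _ _ _ _ _ _ _ _ φ r R _ Γ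
    (fun j => (hk j).2.1) hN' (fun j => (hk j).2.2.2) hov hR hd hdisc hlat hicc
  obtain ⟨j₀⟩ : Nonempty J := inferInstance
  have hA := MX.admP_M k N G hk' hN'
  haveI : ∀ j, T2Space (PG (k j) (N j + 1)) := fun j => H188.LatP.t2_pg _ _
  haveI : ∀ j, SecondCountableTopology (PG (k j) (N j + 1)) := fun j => H188.LatP.sc_pg _ _
  haveI : ∀ j, LocallyCompactSpace (PG (k j) (N j + 1)) := fun j => H188.LatP.lc_pg _ _
  haveI : NoncompactSpace (EM k N G) := SNP.noncompact_of_adm (hA.adm j₀)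
  exact MX.superAll_mix (fun b _ _ => H333.V.rinv_quo (hov b) (hR b) _) hA hl
    (fun i j => (hJ (k i) (l j) _ (hk' i) (hl j)).1)
    (fun i j => (hJ (k i) (l j) _ (hk' i) (hl j)).2) hEx hE hlat hicc

end Vale.Agent.P092.H259.Mx
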