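import Vale.Agent.P092.H259.Mx.LatM

/-!
P092, project MIX (helper259): the closing theorem in a general form. Three alternatives: `Γ` has
property (T), or `E` has property (T), or no projection of `Γ` is discrete.
-/

set_option linter.all false

namespace Vale.Agent.P092.H259.Mx

/-- **The closing theorem of project MIX, general form**: places of the class `TypeP`, and places of
any class of groups with the three properties `Bpl` at which the image of `Γ` is not discrete. -/
theorem superAll_X (mix : MixStmt)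
    (hP : ∀ (Γ : Type) [Group Γ], UN.LatticeP Γ → UN.SuperAll Γ) {Γ I : Type} [Fintype I]
    [Group Γ] (hicc : UN.ICC Γ) {G : I → Type} [∀ j, Group (G j)] [∀ j, TopologicalSpace (G j)]
    {E : Type} [Group E] [TopologicalSpace E] [IsTopologicalGroup E] (f : E →* ∀ j, G j)
    (hf : IsProperMap f) (hr : f.range.FiniteIndex) (i : Γ →* E) (hi : Function.Injective i)
    (hl : UN.IsLattice i.range)
    (hT : UN.PropT Γ ∨ UN.KazT E ∨ ∀ j, ¬ DiscreteTopology (Set.range fun g => f (i g) j))
    (hd : ∀ j, UN.TypeP (G j) ∨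
      Bpl (G j) ∧ ¬ DiscreteTopology (Set.range fun g => f (i g) j)) : UN.SuperAll Γ := by
  have hB : ∀ j, Bpl (G j) := fun j => by
    rcases hd j with h | h
    · exact bpl_typeP _ h
    · exact h.1
  by_cases hn : ∀ j, ¬ DiscreteTopology (Set.range fun g => f (i g) j)
  · exact Fk.superAll_prop hicc f hf hr i hi hl (fun j => (hB j).ov)
      fun j => Or.inr ⟨(hB j).nd, hn j⟩
  haveI : ∀ j, IsTopologicalGroup (G j) := fun j => by
    obtain ⟨M, _, _, φ, r, h⟩ := (hB j).ov
    exact h.top
  haveI : ∀ j, T2Space (G j) := fun j => by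
    obtain ⟨M, _, _, φ, r, h⟩ := (hB j).ov
    exact H333.V.Ov.t2 h
  haveI : ∀ j, LocallyCompactSpace (G j) := fun j => by
    obtain ⟨M, _, _, φ, r, h⟩ := (hB j).ov
    exact H333.V.Ov.lc h
  haveI : ∀ j, SecondCountableTopology (G j) := fun j => by
    obtain ⟨M, _, _, φ, r, h⟩ := (hB j).ov
    exact H333.V.Ov.sc h
  have hT' : UN.PropT Γ := by
    rcases hT with h | h | h
    · exact h
    · exact H759.TL.propT_of_ext hicc f hf i hi hl h
    · exact (hn h).elim
  refine superAll_bd mix hP hicc hT' f hf hr i hi hl fun j => ?_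
  by_cases h1 : DiscreteTopology (Set.range fun g => f (i g) j)
  · rcases hd j with h | h
    · exact Or.inr ⟨h, h1⟩
    · exact (h.2 h1).elim
  · exact Or.inl ⟨(hB j).ov, (hB j).mc, Or.inr ⟨(hB j).nd, h1⟩⟩

end Vale.Agent.P092.H259.Mx
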