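import Vale.Agent.P092.H259.Mx.Fin1
import Vale.Agent.P092.VM.PN

/-!
P092, project MIX (helper259): the producer (PN) is helper971's theorem.
-/

set_option linter.all false

open Set Topology Filter MeasureTheory Matrix

namespace Vale.Agent.P092.H259.Mx

open Vale.Agent.P092.MX (EM iM aM aM' pM ExN ExMHalf)

/-- **(PN)** -/
theorem pnStmt : PNStmt := by
  intro J B _ _ _ _ _ k _ _ N M G _ _ _ _ _ _ _ _ φ r R _ Γ hk hN hn hO hR hd hD hlat hicc
  have h := @VM.exN_M J B _ _ _ k _ _ N M G _ _ _ _ _ _ _ _ φ r R _ hk hN hn hO hR Γ hicc hd hD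
    hlat
  exact @h

end Vale.Agent.P092.H259.Mx
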