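import Vale.Agent.P092.H259.Mx.PlM
import Vale.Agent.P092.H259.Mx.PlN
import Vale.Agent.P092.H259.Mx.LatX
import Vale.Agent.P092.SX.EndT

/-!
P092, project MIX (helper259): **the theorem for the class `UN.LatticeM`**, and its general form.
-/

set_option linter.all false

namespace Vale.Agent.P092.H259.Mx

/-- **The literal of project MIX.** -/
theorem mixStmt : MixStmt := mixStmt_of SX.joints pmStmt pnStmt

/-- **Mixed lattices with property (T)**: Q1, all amplifications, for the class `UN.LatticeM`. -/
theorem superAll_latticeM (Γ : Type) [Group Γ] (h : UN.LatticeM Γ) : UN.SuperAll Γ :=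
  superAll_latticeM_of mixStmt SX.EndT.superAllP Γ h

/-- **The general form**: places of the class `TypeP`, and places of any class of groups with the
three properties `Bpl` at which the image of `Γ` is not discrete. -/
theorem superAll_mix {Γ I : Type} [Fintype I] [Group Γ] (hicc : UN.ICC Γ) {G : I → Type}
    [∀ j, Group (G j)] [∀ j, TopologicalSpace (G j)]
    {E : Type} [Group E] [TopologicalSpace E] [IsTopologicalGroup E] (f : E →* ∀ j, G j)
    (hf : IsProperMap f) (hr : f.range.FiniteIndex) (i : Γ →* E) (hi : Function.Injective i)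
    (hl : UN.IsLattice i.range)
    (hT : UN.PropT Γ ∨ UN.KazT E ∨ ∀ j, ¬ DiscreteTopology (Set.range fun g => f (i g) j))
    (hd : ∀ j, UN.TypeP (G j) ∨
      Bpl (G j) ∧ ¬ DiscreteTopology (Set.range fun g => f (i g) j)) : UN.SuperAll Γ :=
  superAll_X mixStmt SX.EndT.superAllP hicc f hf hr i hi hl hT hd

end Vale.Agent.P092.H259.Mx
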