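import Vale.Agent.P092.H259.Mx.PlM
import Vale.Agent.P092.H560.Mx.FinF
import Vale.Agent.P092.H144.Mp.RedP
import Vale.Agent.P092.SX.EndT

/-!
P092, project MIX: the literal without the condition `n ≠ 0` at the discrete places (the producers are
helper560's `mixStmtF_of` and helper962's `exMHalf_M`), for the reduction of helper144.
-/

set_option linter.all false

namespace Vale.Agent.P092.H259.Mx

/-- **The literal of project MIX without `n ≠ 0`.** -/
theorem mixStmtP : H144.Mp.MixStmtP := H560.Mx.mixStmtF_of SX.joints pmStmt

end Vale.Agent.P092.H259.Mx
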