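import Vale.Agent.P092.H259.Mx.BplP
import Vale.Agent.P092.H259.Mx.BplL
import Vale.Agent.P092.H759.TL.TExt

/-!
P092, project MIX (helper259): the class `UN.LatticeM`, from the literal `MixStmt` and the theorem for
the class `UN.LatticeP`.
-/

set_option linter.all false

namespace Vale.Agent.P092.H259.Mx

/-- **The closing theorem of project MIX**, from the literal `MixStmt`. -/
theorem superAll_latticeM_of (mix : MixStmt)
    (hP : ∀ (Γ : Type) [Group Γ], UN.LatticeP Γ → UN.SuperAll Γ)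
    (Γ : Type) [Group Γ] (h : UN.LatticeM Γ) : UN.SuperAll Γ := by
  obtain ⟨hicc, I, hI, G, hg, ht, E, gE, tE, f, i, htE, hT, hf, hr, hi, hl, hd⟩ := h
  have hB : ∀ j, Bpl (G j) := fun j => by
    rcases hd j with h | h
    · exact bpl_typeP _ h
    · exact bpl_typeL _ h.1
  haveI : ∀ j, IsTopologicalGroup (G j) := fun j => by
    obtain ⟨M, _, _, φ, r, h⟩ := (hB j).ov
    exact h.top
  haveI : ∀ j, T2Space (G j) := fun j => by
    obtain ⟨M, _, _, φ, r, h⟩ := (hB j).ov
    exact H333.V.Ov.t2 h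
  haveI : ∀ j, LocallyCompactSpace (G j) := fun j => by
    obtain ⟨M, _, _, φ, r, h⟩ := (hB j).ov
    exact H333.V.Ov.lc h
  haveI : ∀ j, SecondCountableTopology (G j) := fun j => by
    obtain ⟨M, _, _, φ, r, h⟩ := (hB j).ov
    exact H333.V.Ov.sc h
  have hT' : UN.PropT Γ := hT.elim id fun h => H759.TL.propT_of_ext hicc f hf i hi hl h
  refine superAll_bd mix hP hicc hT' f hf hr i hi hl fun j => ?_
  by_cases h1 : DiscreteTopology (Set.range fun g => f (i g) j)
  · rcases hd j with h | h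
    · exact Or.inr ⟨h, h1⟩
    · exact (h.2 h1).elim
  · exact Or.inl ⟨(hB j).ov, (hB j).mc, Or.inr ⟨(hB j).nd, h1⟩⟩

end Vale.Agent.P092.H259.Mx
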