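import Vale.Agent.P092.H259.Mx.Fin1
import Vale.Agent.P092.H962.MX.PM

/-!
P092, project MIX (helper259): the producer (PM) is helper962's theorem.
-/

set_option linter.all false

open Set Topology Filter MeasureTheory Matrix

namespace Vale.Agent.P092.H259.Mx

open Vale.Agent.P092.MX (EM iM aM aM' pM ExN ExMHalf)

/-- **(PM)** -/
theorem pmStmt : PMStmt := by
  intro J B _ _ _ _ _ k _ _ _ _ μ _ N M G _ _ _ _ _ _ _ _ φ r R _ Γ hk hN hO hR hm hK hd hD hlat
    hicc
  obtain ⟨l, i1, i2, hl, h⟩ := H962.MX.exMHalf_M k μ N (R := R) hk hN hO hR hm hK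
  exact ⟨l, i1, i2, hl, h Γ hicc hd hD hlat⟩

end Vale.Agent.P092.H259.Mx
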