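import Vale.Agent.P092.H144.Mp.RedP

/-!
P092, project MIX (helper259): lattices of products of groups of type `A_n`, all of whose factors are
closed subgroups of `PGL_n(k)`, from the theorem for the class `UN.LatticeP`; no property (T).
-/

set_option linter.all false

open Set Topology Filter MeasureTheory Matrix

namespace Vale.Agent.P092.H259.Mx

open Vale.Agent.P092.H188.LatP (PG t2_pg sc_pg lc_pg)

/-- **The pure case**: every factor is of the class `TypeR`. -/
theorem superAll_pure (hP : ∀ (Γ : Type) [Group Γ], UN.LatticeP Γ → UN.SuperAll Γ) {Γ I : Type}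
    [Fintype I] [Group Γ] (hicc : UN.ICC Γ) {G : I → Type} [∀ j, Group (G j)]
    [∀ j, TopologicalSpace (G j)] {E : Type} [Group E] [TopologicalSpace E] [IsTopologicalGroup E]
    (f : E →* ∀ j, G j) (hf : IsProperMap f) (hr : f.range.FiniteIndex) (i : Γ →* E)
    (hi : Function.Injective i) (hl : UN.IsLattice i.range) (h : ∀ j, H144.Mp.TypeR (G j)) :
    UN.SuperAll Γ := by
  classical
  choose k nk n ψ hk using fun j => H144.Mp.typeR_old (h j)
  haveI : ∀ j, ProperSpace (k j) := fun j => (hk j).1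
  haveI : ∀ j, T2Space (PG (k j) (n j)) := fun j => t2_pg _ _
  haveI : ∀ j, LocallyCompactSpace (PG (k j) (n j)) := fun j => lc_pg _ _
  haveI : ∀ j, IsTopologicalGroup (G j) := fun j =>
    (hk j).2.2.2.1.isInducing.topologicalGroup (ψ j)
  haveI : ∀ j, T2Space (G j) := fun j => (hk j).2.2.2.1.isEmbedding.t2Space
  haveI : ∀ j, LocallyCompactSpace (G j) := fun j => (hk j).2.2.2.1.locallyCompactSpace
  obtain ⟨h1, h2⟩ := Fk.lat_proper' hicc f hf hr i hi ⟨hl.disc, hl.covol⟩
  obtain ⟨F, hF⟩ : ∃ F : (∀ j, G j) →* ∀ j, PG (k j) (n j), ∀ x j, F x j = ψ j (x j) :=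
    ⟨MonoidHom.pi fun j => (ψ j).comp (Pi.evalMonoidHom G j), fun x j => rfl⟩
  have hFf : (F : (∀ j, G j) → _) = Pi.map fun j => (ψ j : G j → PG (k j) (n j)) :=
    funext fun x => funext fun j => hF x j
  have hFp : IsProperMap F := by
    rw [hFf]
    exact (Topology.IsClosedEmbedding.piMap fun j => (hk j).2.2.2.1).isProperMap
  refine hP Γ ⟨hicc, I, inferInstance, inferInstance, k, nk, n, ∀ j, G j, inferInstance,
    inferInstance, F, f.comp i, inferInstance,
    fun j => ⟨(hk j).1, (hk j).2.1, (hk j).2.2.1⟩, hFp, fun j g hg => ?_, h1, ⟨h2.disc, h2.covol⟩⟩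
  obtain ⟨e, he⟩ := (hk j).2.2.2.2 g hg
  refine ⟨Pi.mulSingle j e, funext fun l => ?_⟩
  rw [hF]
  by_cases hlj : l = j
  · subst hlj
    rw [Pi.mulSingle_eq_same, Pi.mulSingle_eq_same, he]
  · rw [Pi.mulSingle_eq_of_ne hlj, Pi.mulSingle_eq_of_ne hlj, map_one]

end Vale.Agent.P092.H259.Mx
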